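import Mathlib

namespace Vale.Agent.P229

open scoped ContDiff RealInnerProductSpace

/-- `g₁₁, g₁₂, g₂₂` are the coefficients of a smooth positive definite metric
`g₁₁ dx² + 2 g₁₂ dx dy + g₂₂ dy²` on the open set `Ω` of the plane. -/
def IsSmoothMetric (Ω : Set (ℝ × ℝ)) (g₁₁ g₁₂ g₂₂ : ℝ × ℝ → ℝ) : Prop :=
  IsOpen Ω ∧ ContDiffOn ℝ ∞ g₁₁ Ω ∧ ContDiffOn ℝ ∞ g₁₂ Ω ∧ ContDiffOn ℝ ∞ g₂₂ Ω ∧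
    ∀ q ∈ Ω, 0 < g₁₁ q ∧ 0 < g₁₁ q * g₂₂ q - g₁₂ q ^ 2

/-- `Φ` is a smooth isometric immersion of `(U, g)` into Euclidean three-space. -/
def IsIsometricImmersion (U : Set (ℝ × ℝ)) (g₁₁ g₁₂ g₂₂ : ℝ × ℝ → ℝ)
    (Φ : ℝ × ℝ → EuclideanSpace ℝ (Fin 3)) : Prop :=
  ContDiffOn ℝ ∞ Φ U ∧ ∀ q ∈ U,
    ⟪fderiv ℝ Φ q (1, 0), fderiv ℝ Φ q (1, 0)⟫ = g₁₁ q ∧
    ⟪fderiv ℝ Φ q (1, 0), fderiv ℝ Φ q (0, 1)⟫ = g₁₂ q ∧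
    ⟪fderiv ℝ Φ q (0, 1), fderiv ℝ Φ q (0, 1)⟫ = g₂₂ q

/-- The metric is locally smoothly realizable at `p`. -/
def LocallyRealizable (g₁₁ g₁₂ g₂₂ : ℝ × ℝ → ℝ) (p : ℝ × ℝ) : Prop :=
  ∃ U : Set (ℝ × ℝ), IsOpen U ∧ p ∈ U ∧
    ∃ Φ : ℝ × ℝ → EuclideanSpace ℝ (Fin 3), IsIsometricImmersion U g₁₁ g₁₂ g₂₂ Φ

end Vale.Agent.P229
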