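import Mathlib

namespace Vale.Agent.P229

open scoped ContDiff RealInnerProductSpace
open Set

/-- A smooth function on an open interval has a smooth primitive there. -/
theorem exists_primitive {a b x0 : ℝ} (hx0 : x0 ∈ Ioo a b) {f : ℝ → ℝ}
    (hf : ContDiffOn ℝ ∞ f (Ioo a b)) :
    ∃ P : ℝ → ℝ, ContDiffOn ℝ ∞ P (Ioo a b) ∧ ∀ x ∈ Ioo a b, HasDerivAt P (f x) x := by
  refine ⟨fun x => ∫ t in x0..x, f t, ?_⟩
  have hcont : ContinuousOn f (Ioo a b) := hf.continuousOn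
  have hder : ∀ x ∈ Ioo a b, HasDerivAt (fun x => ∫ t in x0..x, f t) (f x) x := by
    intro x hx
    have hsub : uIcc x0 x ⊆ Ioo a b := by
      intro t ht
      rcases le_total x0 x with h | h
      · rw [uIcc_of_le h] at ht
        exact ⟨lt_of_lt_of_le hx0.1 ht.1, lt_of_le_of_lt ht.2 hx.2⟩
      · rw [uIcc_of_ge h] at ht
        exact ⟨lt_of_lt_of_le hx.1 ht.1, lt_of_le_of_lt ht.2 hx0.2⟩
    apply intervalIntegral.integral_hasDerivAt_right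
    · exact (hcont.mono hsub).intervalIntegrable
    · exact hcont.stronglyMeasurableAtFilter isOpen_Ioo x hx
    · exact hcont.continuousAt (isOpen_Ioo.mem_nhds hx)
  refine ⟨?_, hder⟩
  rw [contDiffOn_infty_iff_deriv_of_isOpen isOpen_Ioo]
  refine ⟨fun x hx => (hder x hx).differentiableAt.differentiableWithinAt, ?_⟩
  exact hf.congr (fun x hx => (hder x hx).deriv)

/-- One-variable profile data for a rotational (twisted) immersion. -/
theorem exists_profile {x0 δ : ℝ} (hδ : 0 < δ) {E F G : ℝ → ℝ}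
    (hE : ContDiffOn ℝ ∞ E (Ioo (x0 - δ) (x0 + δ)))
    (hF : ContDiffOn ℝ ∞ F (Ioo (x0 - δ) (x0 + δ)))
    (hG : ContDiffOn ℝ ∞ G (Ioo (x0 - δ) (x0 + δ)))
    (hpos : ∀ x ∈ Ioo (x0 - δ) (x0 + δ), 0 < E x ∧ 0 < E x * G x - F x ^ 2) :
    ∃ a η : ℝ, 0 < a ∧ 0 < η ∧ η ≤ δ ∧ ∃ ρ θ h ρ' θ' h' : ℝ → ℝ,
      ContDiffOn ℝ ∞ ρ (Ioo (x0 - η) (x0 + η)) ∧
      ContDiffOn ℝ ∞ θ (Ioo (x0 - η) (x0 + η)) ∧
      ContDiffOn ℝ ∞ h (Ioo (x0 - η) (x0 + η)) ∧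
      ∀ x ∈ Ioo (x0 - η) (x0 + η),
        HasDerivAt ρ (ρ' x) x ∧ HasDerivAt θ (θ' x) x ∧ HasDerivAt h (h' x) x ∧
        ρ' x ^ 2 + ρ x ^ 2 * θ' x ^ 2 + h' x ^ 2 = E x ∧
        ρ x ^ 2 * θ' x / a = F x ∧ ρ x ^ 2 / a ^ 2 = G x := by
  set I := Ioo (x0 - δ) (x0 + δ) with hI
  have hx0 : x0 ∈ I := ⟨by linarith, by linarith⟩
  have hGpos : ∀ x ∈ I, 0 < G x := by
    intro x hx
    obtain ⟨h1, h2⟩ := hpos x hx
    have : 0 < E x * G x := by nlinarith [sq_nonneg (F x)]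
    exact (pos_iff_pos_of_mul_pos this).1 h1
  set s : ℝ → ℝ := fun x => Real.sqrt (G x) with hs
  have hsC : ContDiffOn ℝ ∞ s I := hG.sqrt (fun x hx => (hGpos x hx).ne')
  have hs'C : ContDiffOn ℝ ∞ (deriv s) I := hsC.deriv_of_isOpen isOpen_Ioo (by simp)
  set κ := (E x0 * G x0 - F x0 ^ 2) / G x0 with hκ
  have hκpos : 0 < κ := div_pos (hpos x0 hx0).2 (hGpos x0 hx0)
  set M := (deriv s x0) ^ 2 with hM
  have hM0 : 0 ≤ M := sq_nonneg _
  set a := min 1 (κ / (M + 1)) with ha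
  have ha0 : 0 < a := lt_min one_pos (div_pos hκpos (by linarith))
  have ha1 : a ≤ 1 := min_le_left _ _
  have ha2 : a ≤ κ / (M + 1) := min_le_right _ _
  have haM : a ^ 2 * M < κ := by
    have h1 : a * (M + 1) ≤ κ := by rwa [le_div_iff₀ (by linarith)] at ha2
    have h2 : a ^ 2 ≤ a := by nlinarith
    nlinarith
  set w : ℝ → ℝ := fun x => (E x * G x - F x ^ 2) / G x - a ^ 2 * (deriv s x) ^ 2 with hw
  have hwC : ContDiffOn ℝ ∞ w I :=
    (((hE.mul hG).sub (hF.pow 2)).div hG (fun x hx => (hGpos x hx).ne')).sub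
      (contDiffOn_const.mul (hs'C.pow 2))
  have hw0 : 0 < w x0 := by
    simp only [hw]
    linarith
  have hwcont : ContinuousAt w x0 := hwC.continuousOn.continuousAt (isOpen_Ioo.mem_nhds hx0)
  have hev : ∀ᶠ x in nhds x0, 0 < w x := hwcont.eventually (lt_mem_nhds hw0)
  obtain ⟨η0, hη0, hball⟩ := Metric.eventually_nhds_iff.1 hev
  set η := min η0 δ with hη
  have hηpos : 0 < η := lt_min hη0 hδ
  have hηδ : η ≤ δ := min_le_right _ _
  set J := Ioo (x0 - η) (x0 + η) with hJ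
  have hJI : J ⊆ I := fun x hx => ⟨by linarith [hx.1], by linarith [hx.2]⟩
  have hx0J : x0 ∈ J := ⟨by linarith, by linarith⟩
  have hwpos : ∀ x ∈ J, 0 < w x := by
    intro x hx
    apply hball
    rw [Real.dist_eq, abs_lt]
    have : η ≤ η0 := min_le_left _ _
    exact ⟨by linarith [hx.1], by linarith [hx.2]⟩
  have hsqC : ContDiffOn ℝ ∞ (fun x => Real.sqrt (w x)) J :=
    (hwC.mono hJI).sqrt (fun x hx => (hwpos x hx).ne')
  have hthC : ContDiffOn ℝ ∞ (fun x => F x / (a * G x)) J :=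
    (hF.mono hJI).div (contDiffOn_const.mul (hG.mono hJI))
      (fun x hx => (mul_pos ha0 (hGpos x (hJI hx))).ne')
  obtain ⟨h, hhC, hhD⟩ := exists_primitive hx0J hsqC
  obtain ⟨θ, hθC, hθD⟩ := exists_primitive hx0J hthC
  refine ⟨a, η, ha0, hηpos, hηδ, fun x => a * s x, θ, h, fun x => a * deriv s x,
    fun x => F x / (a * G x), fun x => Real.sqrt (w x),
    contDiffOn_const.mul (hsC.mono hJI), hθC, hhC, ?_⟩
  intro x hx
  have hxI := hJI hx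
  have hsd : HasDerivAt s (deriv s x) x :=
    ((hsC.differentiableOn (by simp)).differentiableAt (isOpen_Ioo.mem_nhds hxI)).hasDerivAt
  have hGx := hGpos x hxI
  have hs2 : s x ^ 2 = G x := Real.sq_sqrt hGx.le
  have hw2 : Real.sqrt (w x) ^ 2 = w x := Real.sq_sqrt (hwpos x hx).le
  refine ⟨hsd.const_mul a, hθD x hx, hhD x hx, ?_, ?_, ?_⟩
  · rw [hw2]
    simp only [hw]
    rw [mul_pow, mul_pow, hs2]
    field_simp
    ring
  · rw [mul_pow, hs2]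
    field_simp
  · rw [mul_pow, hs2]
    field_simp

theorem inner_combo (a0 a1 a2 b0 b1 b2 : ℝ) :
    ⟪a0 • EuclideanSpace.single (0 : Fin 3) (1 : ℝ) + a1 • EuclideanSpace.single (1 : Fin 3) (1 : ℝ)
        + a2 • EuclideanSpace.single (2 : Fin 3) (1 : ℝ),
      b0 • EuclideanSpace.single (0 : Fin 3) (1 : ℝ) + b1 • EuclideanSpace.single (1 : Fin 3) (1 : ℝ)
        + b2 • EuclideanSpace.single (2 : Fin 3) (1 : ℝ)⟫ = a0 * b0 + a1 * b1 + a2 * b2 := by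
  simp [PiLp.inner_apply, Fin.sum_univ_three]
  ring

/-- The twisted rotational map built from profile functions. -/
noncomputable def rotMap (a : ℝ) (ρ θ h : ℝ → ℝ) (q : ℝ × ℝ) : EuclideanSpace ℝ (Fin 3) :=
  (ρ q.1 * Real.cos (q.2 / a + θ q.1)) • EuclideanSpace.single (0 : Fin 3) (1 : ℝ)
    + (ρ q.1 * Real.sin (q.2 / a + θ q.1)) • EuclideanSpace.single (1 : Fin 3) (1 : ℝ)
    + (h q.1) • EuclideanSpace.single (2 : Fin 3) (1 : ℝ)

theorem rotMap_contDiffOn (a : ℝ) {ρ θ h : ℝ → ℝ} {J : Set ℝ}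
    (hρ : ContDiffOn ℝ ∞ ρ J) (hθ : ContDiffOn ℝ ∞ θ J) (hh : ContDiffOn ℝ ∞ h J) (K : Set ℝ) :
    ContDiffOn ℝ ∞ (rotMap a ρ θ h) (J ×ˢ K) := by
  have hfst : ContDiffOn ℝ ∞ (fun q : ℝ × ℝ => q.1) (J ×ˢ K) := contDiff_fst.contDiffOn
  have hsnd : ContDiffOn ℝ ∞ (fun q : ℝ × ℝ => q.2) (J ×ˢ K) := contDiff_snd.contDiffOn
  have hmaps : MapsTo (fun q : ℝ × ℝ => q.1) (J ×ˢ K) J := fun q hq => hq.1
  have h1 : ContDiffOn ℝ ∞ (fun q : ℝ × ℝ => ρ q.1) (J ×ˢ K) := hρ.comp hfst hmaps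
  have h2 : ContDiffOn ℝ ∞ (fun q : ℝ × ℝ => θ q.1) (J ×ˢ K) := hθ.comp hfst hmaps
  have h3 : ContDiffOn ℝ ∞ (fun q : ℝ × ℝ => h q.1) (J ×ˢ K) := hh.comp hfst hmaps
  have h4 : ContDiffOn ℝ ∞ (fun q : ℝ × ℝ => q.2 / a + θ q.1) (J ×ˢ K) :=
    (hsnd.div_const a).add h2
  unfold rotMap
  exact (((h1.mul h4.cos).smul contDiffOn_const).add ((h1.mul h4.sin).smul contDiffOn_const)).add
    (h3.smul contDiffOn_const)

theorem rotMap_metric (a : ℝ) {ρ θ h : ℝ → ℝ} {r t k : ℝ} (q : ℝ × ℝ)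
    (hρ : HasDerivAt ρ r q.1) (hθ : HasDerivAt θ t q.1) (hh : HasDerivAt h k q.1) :
    ⟪fderiv ℝ (rotMap a ρ θ h) q (1, 0), fderiv ℝ (rotMap a ρ θ h) q (1, 0)⟫
        = r ^ 2 + ρ q.1 ^ 2 * t ^ 2 + k ^ 2 ∧
    ⟪fderiv ℝ (rotMap a ρ θ h) q (1, 0), fderiv ℝ (rotMap a ρ θ h) q (0, 1)⟫
        = ρ q.1 ^ 2 * t / a ∧
    ⟪fderiv ℝ (rotMap a ρ θ h) q (0, 1), fderiv ℝ (rotMap a ρ θ h) q (0, 1)⟫
        = ρ q.1 ^ 2 / a ^ 2 := by
  have h1 : HasFDerivAt (fun q : ℝ × ℝ => ρ q.1) (r • ContinuousLinearMap.fst ℝ ℝ ℝ) q :=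
    hρ.comp_hasFDerivAt q hasFDerivAt_fst
  have h2 : HasFDerivAt (fun q : ℝ × ℝ => θ q.1) (t • ContinuousLinearMap.fst ℝ ℝ ℝ) q :=
    hθ.comp_hasFDerivAt q hasFDerivAt_fst
  have h3 : HasFDerivAt (fun q : ℝ × ℝ => h q.1) (k • ContinuousLinearMap.fst ℝ ℝ ℝ) q :=
    hh.comp_hasFDerivAt q hasFDerivAt_fst
  have h4 : HasFDerivAt (fun q : ℝ × ℝ => q.2 / a + θ q.1)
      (a⁻¹ • ContinuousLinearMap.snd ℝ ℝ ℝ + t • ContinuousLinearMap.fst ℝ ℝ ℝ) q := by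
    have : HasFDerivAt (fun q : ℝ × ℝ => a⁻¹ * q.2) (a⁻¹ • ContinuousLinearMap.snd ℝ ℝ ℝ) q :=
      hasFDerivAt_snd.const_mul a⁻¹
    have h5 := this.add h2
    refine h5.congr_of_eventuallyEq (Filter.Eventually.of_forall (fun z => ?_))
    simp [div_eq_inv_mul]
  have hA := (h1.mul h4.cos).smul_const (EuclideanSpace.single (0 : Fin 3) (1 : ℝ))
  have hB := (h1.mul h4.sin).smul_const (EuclideanSpace.single (1 : Fin 3) (1 : ℝ))
  have hC := h3.smul_const (EuclideanSpace.single (2 : Fin 3) (1 : ℝ))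
  have hΦ := (hA.add hB).add hC
  have hΦ' : HasFDerivAt (rotMap a ρ θ h) _ q := hΦ
  have hcs := Real.cos_sq_add_sin_sq (q.2 / a + θ q.1)
  have ex : fderiv ℝ (rotMap a ρ θ h) q (1, 0) =
      (r * Real.cos (q.2 / a + θ q.1) - ρ q.1 * t * Real.sin (q.2 / a + θ q.1))
          • EuclideanSpace.single (0 : Fin 3) (1 : ℝ)
        + (r * Real.sin (q.2 / a + θ q.1) + ρ q.1 * t * Real.cos (q.2 / a + θ q.1))
          • EuclideanSpace.single (1 : Fin 3) (1 : ℝ)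
        + k • EuclideanSpace.single (2 : Fin 3) (1 : ℝ) := by
    rw [hΦ'.fderiv]
    simp
    module
  have ey : fderiv ℝ (rotMap a ρ θ h) q (0, 1) =
      (- (ρ q.1 / a * Real.sin (q.2 / a + θ q.1))) • EuclideanSpace.single (0 : Fin 3) (1 : ℝ)
        + (ρ q.1 / a * Real.cos (q.2 / a + θ q.1)) • EuclideanSpace.single (1 : Fin 3) (1 : ℝ)
        + (0 : ℝ) • EuclideanSpace.single (2 : Fin 3) (1 : ℝ) := by
    rw [hΦ'.fderiv]
    simp
    module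
  rw [ex, ey]
  set c := Real.cos (q.2 / a + θ q.1)
  set s := Real.sin (q.2 / a + θ q.1)
  have hs2 : s ^ 2 = 1 - c ^ 2 := by linarith
  refine ⟨?_, ?_, ?_⟩
  · rw [inner_combo]
    ring_nf
    rw [hs2]
    ring
  · rw [inner_combo]
    ring_nf
    rw [hs2]
    ring
  · rw [inner_combo]
    ring_nf
    rw [hs2]
    ring

end Vale.Agent.P229
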